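import Mathlib

/-!
P186, block HYP, part (1): the rectangle inequality for groups with a finite presentation,
by mod 2 winding numbers (helper698).
-/

namespace Vale.Agent.P186.Wind

open Finset

section words

variable {A G : Type} [Group G] (gen : A → G)

/-- value of a signed letter -/
def lv (a : A × Bool) : G := if a.2 then gen a.1 else (gen a.1)⁻¹

/-- value of a word -/
def wv (w : List (A × Bool)) : G := (w.map (lv gen)).prod

@[simp] lemma wv_nil : wv gen ([] : List (A × Bool)) = 1 := rfl

@[simp] lemma wv_cons (a : A × Bool) (w : List (A × Bool)) :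
    wv gen (a :: w) = lv gen a * wv gen w := by simp [wv]

@[simp] lemma wv_append (w w' : List (A × Bool)) :
    wv gen (w ++ w') = wv gen w * wv gen w' := by simp [wv]

/-- `Area R k u`: `u` is a product of `k` conjugates of elements of `R` -/
inductive Area (R : Set (List (A × Bool))) : ℕ → FreeGroup A → Prop
  | nil : Area R 0 1
  | cons (k : ℕ) (u v : FreeGroup A) (r : List (A × Bool)) : r ∈ R → Area R k u →
      Area R (k + 1) (v * FreeGroup.mk r * v⁻¹ * u)

/-- sum of an edge function along the path that starts at `g` and reads the word -/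
def par (n : G → G → ZMod 2) : G → List (A × Bool) → ZMod 2
  | _, [] => 0
  | g, a :: w => n g (g * lv gen a) + par n (g * lv gen a) w

/-- all vertices of the path satisfy `P` -/
def AllV (P : G → Prop) : G → List (A × Bool) → Prop
  | g, [] => P g
  | g, a :: w => P g ∧ AllV P (g * lv gen a) w

variable {gen}

lemma par_append (n : G → G → ZMod 2) (w w' : List (A × Bool)) : ∀ g : G,
    par gen n g (w ++ w') = par gen n g w + par gen n (g * wv gen w) w' := by
  induction w with
  | nil => intro g; simp [par]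
  | cons a w ih =>
    intro g
    simp only [List.cons_append, par, ih, wv_cons, mul_assoc, add_assoc]

lemma AllV.start {P : G → Prop} {g : G} {w : List (A × Bool)} (h : AllV gen P g w) : P g := by
  cases w with
  | nil => exact h
  | cons a w => exact h.1

lemma AllV.end_ {P : G → Prop} {w : List (A × Bool)} : ∀ {g : G}, AllV gen P g w →
    P (g * wv gen w) := by
  induction w with
  | nil => intro g h; rw [wv_nil, mul_one]; exact h
  | cons a w ih =>
    intro g h
    have := ih h.2
    simpa [mul_assoc] using this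

lemma AllV.mono {P Q : G → Prop} (hPQ : ∀ x, P x → Q x) {w : List (A × Bool)} :
    ∀ {g : G}, AllV gen P g w → AllV gen Q g w := by
  induction w with
  | nil => intro g h; exact hPQ _ h
  | cons a w ih => intro g h; exact ⟨hPQ _ h.1, ih h.2⟩

/-- the letters act on `G × ZMod 2` -/
def act (gen : A → G) (n : G → G → ZMod 2) (hn : ∀ x y, n x y = n y x) (a : A) :
    Equiv.Perm (G × ZMod 2) where
  toFun x := (x.1 * gen a, x.2 + n x.1 (x.1 * gen a))
  invFun x := (x.1 * (gen a)⁻¹, x.2 + n x.1 (x.1 * (gen a)⁻¹))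
  left_inv x := by
    ext
    · simp
    · simp only [mul_inv_cancel_right]
      rw [hn (x.1 * gen a) x.1, add_assoc, CharTwo.add_self_eq_zero, add_zero]
  right_inv x := by
    ext
    · simp
    · simp only [inv_mul_cancel_right]
      rw [hn (x.1 * (gen a)⁻¹) x.1, add_assoc, CharTwo.add_self_eq_zero, add_zero]

/-- the homomorphism to the opposite of the permutation group -/
def hom (gen : A → G) (n : G → G → ZMod 2) (hn : ∀ x y, n x y = n y x) :
    FreeGroup A →* (Equiv.Perm (G × ZMod 2))ᵐᵒᵖ :=
  FreeGroup.lift (fun a => MulOpposite.op (act gen n hn a))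

lemma hom_mk (n : G → G → ZMod 2) (hn : ∀ x y, n x y = n y x) (w : List (A × Bool)) :
    ∀ x : G × ZMod 2, (hom gen n hn (FreeGroup.mk w)).unop x
      = (x.1 * wv gen w, x.2 + par gen n x.1 w) := by
  induction w with
  | nil =>
    intro x
    have : FreeGroup.mk ([] : List (A × Bool)) = 1 := rfl
    rw [this, map_one]
    simp [par]
  | cons a w ih =>
    intro x
    have h1 : FreeGroup.mk (a :: w) = FreeGroup.mk [a] * FreeGroup.mk w := by
      rw [FreeGroup.mul_mk]; rfl
    rw [h1, map_mul, MulOpposite.unop_mul, Equiv.Perm.mul_apply]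
    have h2 : (hom gen n hn (FreeGroup.mk [a])).unop x
        = (x.1 * lv gen a, x.2 + n x.1 (x.1 * lv gen a)) := by
      obtain ⟨a, b⟩ := a
      cases b
      · simp [hom, lv, act, FreeGroup.lift_mk]
      · simp [hom, lv, act, FreeGroup.lift_mk]
    rw [h2, ih]
    simp [par, mul_assoc, add_assoc]

open Classical in
/-- decomposition of a null word into relator loops, uniformly in the edge function -/
lemma Area.loops {R : Set (List (A × Bool))} (hR : ∀ r ∈ R, wv gen r = 1) {k : ℕ}
    {u : FreeGroup A} (h : Area R k u) :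
    ∃ L : List (G × List (A × Bool)), L.length = k ∧ (∀ x ∈ L, x.2 ∈ R) ∧
      ∀ (n : G → G → ZMod 2) (hn : ∀ x y, n x y = n y x), ∀ x : G × ZMod 2,
        (hom gen n hn u).unop x
          = (x.1, x.2 + (L.map (fun y => par gen n (x.1 * y.1) y.2)).sum) := by
  induction h with
  | nil => exact ⟨[], rfl, by simp, fun n hn x => by simp⟩
  | cons k u v r hr _ ih =>
    obtain ⟨L, hL, hLR, hLp⟩ := ih
    obtain ⟨vw, rfl⟩ : ∃ vw, FreeGroup.mk vw = v := ⟨v.toWord, FreeGroup.mk_toWord⟩
    refine ⟨(wv gen vw, r) :: L, by simp [hL], ?_, ?_⟩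
    · intro x hx
      rcases List.mem_cons.1 hx with rfl | hx
      · exact hr
      · exact hLR x hx
    · intro n hn x
      rw [map_mul, MulOpposite.unop_mul, Equiv.Perm.mul_apply]
      have h1 : (hom gen n hn (FreeGroup.mk vw * FreeGroup.mk r * (FreeGroup.mk vw)⁻¹)).unop x
          = (x.1, x.2 + par gen n (x.1 * wv gen vw) r) := by
        rw [map_mul, map_mul, map_inv, MulOpposite.unop_mul, MulOpposite.unop_mul,
          MulOpposite.unop_inv, Equiv.Perm.mul_apply, Equiv.Perm.mul_apply, Equiv.Perm.inv_eq_iff_eq,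
          hom_mk, hom_mk, hom_mk]
        simp only [hR r hr, mul_one, Prod.mk.injEq, true_and]
        ring
      rw [h1, hLp]
      simp [add_assoc]

end words

section rect

variable {A G : Type} [Group G] {gen : A → G}

open Classical in
/-- the indicator of `h ≤ s` -/
noncomputable def chi (h : G → ℕ) (s : ℕ) (x : G) : ZMod 2 := if h x ≤ s then 1 else 0

open Classical in
/-- the edge function of the winding number around `(t, s)` -/
noncomputable def nts (f h : G → ℕ) (t s : ℕ) (x y : G) : ZMod 2 :=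
  if f x ≤ t ∧ f y ≤ t then chi h s x + chi h s y else 0

omit [Group G] in
lemma nts_symm (f h : G → ℕ) (t s : ℕ) (x y : G) : nts f h t s x y = nts f h t s y x := by
  unfold nts
  by_cases h1 : f x ≤ t ∧ f y ≤ t
  · rw [if_pos h1, if_pos h1.symm, add_comm]
  · rw [if_neg h1, if_neg (fun h2 => h1 h2.symm)]

lemma par_low {f h : G → ℕ} {t s : ℕ} (w : List (A × Bool)) : ∀ g : G,
    AllV gen (fun x => f x ≤ t) g w →
    par gen (nts f h t s) g w = chi h s g + chi h s (g * wv gen w) := by
  induction w with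
  | nil => intro g _; simp [par, CharTwo.add_self_eq_zero]
  | cons a w ih =>
    intro g hg
    rw [par, ih _ hg.2, wv_cons, nts, if_pos ⟨hg.1, hg.2.start⟩, mul_assoc]
    have : chi h s (g * lv gen a) + chi h s (g * lv gen a) = 0 := CharTwo.add_self_eq_zero _
    linear_combination this

lemma par_high {f h : G → ℕ} {t s : ℕ} (w : List (A × Bool)) : ∀ g : G,
    AllV gen (fun x => t < f x) g w → par gen (nts f h t s) g w = 0 := by
  induction w with
  | nil => intro g _; simp [par]
  | cons a w ih =>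
    intro g hg
    rw [par, ih _ hg.2, nts, if_neg (by have := hg.1; simp only at this; omega), zero_add]

lemma par_hlow {f h : G → ℕ} {t s : ℕ} (w : List (A × Bool)) : ∀ g : G,
    AllV gen (fun x => h x ≤ s) g w → par gen (nts f h t s) g w = 0 := by
  induction w with
  | nil => intro g _; simp [par]
  | cons a w ih =>
    intro g hg
    have h1 : chi h s g = 1 := if_pos hg.1
    have h2 : chi h s (g * lv gen a) = 1 := if_pos hg.2.start
    rw [par, ih _ hg.2, nts, h1, h2, CharTwo.add_self_eq_zero, ite_self, zero_add]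

lemma par_hhigh {f h : G → ℕ} {t s : ℕ} (w : List (A × Bool)) : ∀ g : G,
    AllV gen (fun x => s < h x) g w → par gen (nts f h t s) g w = 0 := by
  induction w with
  | nil => intro g _; simp [par]
  | cons a w ih =>
    intro g hg
    have h1 : chi h s g = 0 := if_neg (not_le.2 hg.1)
    have h2 : chi h s (g * lv gen a) = 0 := if_neg (not_le.2 hg.2.start)
    rw [par, ih _ hg.2, nts, h1, h2, add_zero, add_zero, ite_self]

/-- values of a 1-Lipschitz function along a path -/
lemma allV_lip {f : G → ℕ} (hf : ∀ (x : G) (a : A × Bool), f (x * lv gen a) ≤ f x + 1 ∧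
    f x ≤ f (x * lv gen a) + 1) (w : List (A × Bool)) : ∀ (g : G) (m M : ℕ),
    m + w.length ≤ f g → f g + w.length ≤ M →
    AllV gen (fun x => m ≤ f x ∧ f x ≤ M) g w := by
  induction w with
  | nil =>
    intro g m M h1 h2
    simp only [List.length_nil, add_zero] at h1 h2
    exact ⟨h1, h2⟩
  | cons a w ih =>
    intro g m M h1 h2
    simp only [List.length_cons] at h1 h2
    obtain ⟨h3, h4⟩ := hf g a
    exact ⟨⟨by omega, by omega⟩, ih _ _ _ (by omega) (by omega)⟩

lemma allV_lip_le {f : G → ℕ} (hf : ∀ (x : G) (a : A × Bool), f (x * lv gen a) ≤ f x + 1 ∧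
    f x ≤ f (x * lv gen a) + 1) (w : List (A × Bool)) : ∀ (g : G) (M : ℕ),
    f g + w.length ≤ M → AllV gen (fun x => f x ≤ M) g w := by
  induction w with
  | nil =>
    intro g M h2
    simp only [List.length_nil, add_zero] at h2
    exact h2
  | cons a w ih =>
    intro g M h2
    simp only [List.length_cons] at h2
    obtain ⟨h3, h4⟩ := hf g a
    exact ⟨by omega, ih _ _ (by omega)⟩

lemma allV_lip_lt {f : G → ℕ} (hf : ∀ (x : G) (a : A × Bool), f (x * lv gen a) ≤ f x + 1 ∧
    f x ≤ f (x * lv gen a) + 1) (w : List (A × Bool)) : ∀ (g : G) (m : ℕ),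
    m + w.length < f g → AllV gen (fun x => m < f x) g w := by
  induction w with
  | nil =>
    intro g m h2
    simp only [List.length_nil, add_zero] at h2
    exact h2
  | cons a w ih =>
    intro g m h2
    simp only [List.length_cons] at h2
    obtain ⟨h3, h4⟩ := hf g a
    exact ⟨by omega, ih _ _ (by omega)⟩

/-- a closed loop of length at most `ρ` is odd for at most `(2ρ+1)^2` pairs -/
lemma loop_odd {f h : G → ℕ}
    (hf : ∀ (x : G) (a : A × Bool), f (x * lv gen a) ≤ f x + 1 ∧ f x ≤ f (x * lv gen a) + 1)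
    (hh : ∀ (x : G) (a : A × Bool), h (x * lv gen a) ≤ h x + 1 ∧ h x ≤ h (x * lv gen a) + 1)
    {w : List (A × Bool)} (hw : wv gen w = 1) {g : G} {t s : ℕ}
    (hodd : par gen (nts f h t s) g w ≠ 0) :
    (f g ≤ t + w.length ∧ t < f g + w.length) ∧ (h g ≤ s + w.length ∧ s < h g + w.length) := by
  refine ⟨⟨?_, ?_⟩, ?_, ?_⟩
  · by_contra hc
    exact hodd (par_high w g (allV_lip_lt hf w g t (by omega)))
  · by_contra hc
    apply hodd
    rw [par_low w g (allV_lip_le hf w g t (by omega)), hw, mul_one, CharTwo.add_self_eq_zero]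
  · by_contra hc
    exact hodd (par_hhigh w g (allV_lip_lt hh w g s (by omega)))
  · by_contra hc
    exact hodd (par_hlow w g (allV_lip_le hh w g s (by omega)))

/-- RECTANGLE INEQUALITY -/
theorem rect {R : Set (List (A × Bool))} {ρ : ℕ} (hR : ∀ r ∈ R, wv gen r = 1)
    (hρ : ∀ r ∈ R, r.length ≤ ρ) {k : ℕ} {f h : G → ℕ}
    (hf : ∀ (x : G) (a : A × Bool), f (x * lv gen a) ≤ f x + 1 ∧ f x ≤ f (x * lv gen a) + 1)
    (hh : ∀ (x : G) (a : A × Bool), h (x * lv gen a) ≤ h x + 1 ∧ h x ≤ h (x * lv gen a) + 1)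
    {a1 a2 a3 a4 : List (A × Bool)} {g1 g2 g3 g4 : G}
    (e1 : g1 * wv gen a1 = g2) (e2 : g2 * wv gen a2 = g3) (e3 : g3 * wv gen a3 = g4)
    (e4 : g4 * wv gen a4 = g1)
    (hA : Area R k (FreeGroup.mk (a1 ++ (a2 ++ (a3 ++ a4))))) {d1 d2 : ℕ}
    (H1 : AllV gen (fun x => f x = 0) g1 a1) (H2 : AllV gen (fun x => h x = 0) g2 a2)
    (H3 : AllV gen (fun x => d1 ≤ f x) g3 a3) (H4 : AllV gen (fun x => d2 ≤ h x) g4 a4) :
    d1 * d2 ≤ k * (2 * ρ) ^ 2 := by
  classical
  obtain ⟨L, hL, hLR, hLp⟩ := hA.loops hR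
  -- for every pair `(t, s)` some relator loop is odd
  have key : ∀ t < d1, ∀ s < d2, ∃ x ∈ L, par gen (nts f h t s) (g1 * x.1) x.2 ≠ 0 := by
    intro t ht s hs
    by_contra hc
    push Not at hc
    have h1 := hLp (nts f h t s) (nts_symm f h t s) (g1, 0)
    rw [hom_mk] at h1
    have h2 := (Prod.ext_iff.1 h1).2
    simp only [zero_add] at h2
    have h3 : (L.map (fun y => par gen (nts f h t s) (g1 * y.1) y.2)).sum = 0 := by
      apply List.sum_eq_zero
      intro x hx
      obtain ⟨y, hy, rfl⟩ := List.mem_map.1 hx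
      exact hc y hy
    rw [h3, par_append, par_append, par_append, e1, e2, e3] at h2
    have p1 : par gen (nts f h t s) g1 a1 = 1 := by
      rw [par_low a1 g1 (H1.mono (fun x hx => by rw [hx]; exact Nat.zero_le _)), e1]
      have c1 : chi h s g1 = 0 := by
        have := H4.end_
        rw [e4] at this
        exact if_neg (by omega)
      have c2 : chi h s g2 = 1 := if_pos (by rw [H2.start]; exact Nat.zero_le _)
      rw [c1, c2, zero_add]
    have p2 : par gen (nts f h t s) g2 a2 = 0 :=
      par_hlow a2 g2 (H2.mono (fun x hx => by rw [hx]; exact Nat.zero_le _))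
    have p3 : par gen (nts f h t s) g3 a3 = 0 :=
      par_high a3 g3 (H3.mono (fun x hx => lt_of_lt_of_le ht hx))
    have p4 : par gen (nts f h t s) g4 a4 = 0 :=
      par_hhigh a4 g4 (H4.mono (fun x hx => lt_of_lt_of_le hs hx))
    rw [p1, p2, p3, p4] at h2
    simp at h2
  -- counting
  have hsub : (Finset.range d1 ×ˢ Finset.range d2) ⊆
      L.toFinset.biUnion (fun x =>
        (Finset.Ico (f (g1 * x.1) - ρ) (f (g1 * x.1) + ρ)) ×ˢ
        (Finset.Ico (h (g1 * x.1) - ρ) (h (g1 * x.1) + ρ))) := by
    intro p hp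
    rw [Finset.mem_product, Finset.mem_range, Finset.mem_range] at hp
    obtain ⟨x, hx, hxo⟩ := key p.1 hp.1 p.2 hp.2
    obtain ⟨⟨q1, q2⟩, q3, q4⟩ := loop_odd hf hh (hR _ (hLR x hx)) hxo
    have q5 := hρ _ (hLR x hx)
    rw [Finset.mem_biUnion]
    refine ⟨x, List.mem_toFinset.2 hx, ?_⟩
    rw [Finset.mem_product, Finset.mem_Ico, Finset.mem_Ico]
    refine ⟨⟨by omega, by omega⟩, by omega, by omega⟩
  have h1 := Finset.card_le_card hsub
  rw [Finset.card_product, Finset.card_range, Finset.card_range] at h1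
  refine h1.trans (Finset.card_biUnion_le.trans ?_)
  have h2 : ∀ x ∈ L.toFinset, ((Finset.Ico (f (g1 * x.1) - ρ) (f (g1 * x.1) + ρ)) ×ˢ
        (Finset.Ico (h (g1 * x.1) - ρ) (h (g1 * x.1) + ρ))).card ≤ (2 * ρ) ^ 2 := by
    intro x _
    rw [Finset.card_product, Nat.card_Ico, Nat.card_Ico, pow_two]
    exact Nat.mul_le_mul (by omega) (by omega)
  refine (Finset.sum_le_card_nsmul _ _ _ h2).trans ?_
  rw [smul_eq_mul]
  exact Nat.mul_le_mul_right _ (hL ▸ List.toFinset_card_le L)

end rect

end Vale.Agent.P186.Wind
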